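import Vale.Agent.P281.H64.TS.Spec

/-!
# P281, project T-S: elementary facts on sheets and good coverings (helper89)
-/

open Set Filter Metric MeasureTheory Vale.Agent.P281.H64
open scoped Topology ContDiff ComplexConjugate ComplexOrder

noncomputable section

namespace Vale.Agent.P281.H89.TS

open Vale.Agent.P281.H64.TK Vale.Agent.P281.H64.TK.TS

variable {d : ℕ} {E Γ : Type} [TopologicalSpace E] [Group Γ] [MulAction Γ E]

theorem isOpen_eb (c : Cm d) (r : ℝ) : IsOpen (eb c r) := by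
  unfold eb
  exact isOpen_lt (by fun_prop) continuous_const

theorem convex_eb (c : Cm d) (r : ℝ) : Convex ℝ (eb c r) := by
  intro z hz w hw a b ha hb hab
  simp only [eb, mem_ofPred_eq] at hz hw ⊢
  have key : ∀ k, ‖(a • z + b • w) k - c k‖ ^ 2 ≤ a * ‖z k - c k‖ ^ 2 + b * ‖w k - c k‖ ^ 2 := by
    intro k
    have e : (a • z + b • w) k - c k = a • (z k - c k) + b • (w k - c k) := by
      have : c k = a • c k + b • c k := by rw [← add_smul, hab, one_smul]
      rw [Pi.add_apply, Pi.smul_apply, Pi.smul_apply]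
      nth_rw 1 [this]
      simp only [smul_sub]
      abel
    have h1 : ‖(a • z + b • w) k - c k‖ ≤ a * ‖z k - c k‖ + b * ‖w k - c k‖ := by
      rw [e]
      refine (norm_add_le _ _).trans (le_of_eq ?_)
      rw [norm_smul, norm_smul, Real.norm_of_nonneg ha, Real.norm_of_nonneg hb]
    have h2 : 0 ≤ ‖(a • z + b • w) k - c k‖ := norm_nonneg _
    have hb' : b = 1 - a := by linarith
    subst hb'
    nlinarith [mul_nonneg ha hb, sq_nonneg (‖z k - c k‖ - ‖w k - c k‖),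
      mul_nonneg (mul_nonneg ha hb) (sq_nonneg (‖z k - c k‖ - ‖w k - c k‖)),
      mul_le_mul h1 h1 h2 (by positivity)]
  calc ∑ k, ‖(a • z + b • w) k - c k‖ ^ 2
      ≤ ∑ k, (a * ‖z k - c k‖ ^ 2 + b * ‖w k - c k‖ ^ 2) := Finset.sum_le_sum fun k _ => key k
    _ = a * ∑ k, ‖z k - c k‖ ^ 2 + b * ∑ k, ‖w k - c k‖ ^ 2 := by
      rw [Finset.sum_add_distrib, Finset.mul_sum, Finset.mul_sum]
    _ < r ^ 2 := by
      rcases ha.eq_or_lt with h0 | h0
      · have : b = 1 := by linarith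
        rw [← h0, this]; linarith
      · have h1 : a * ∑ k, ‖z k - c k‖ ^ 2 < a * r ^ 2 := mul_lt_mul_of_pos_left hz h0
        have h2 : b * ∑ k, ‖w k - c k‖ ^ 2 ≤ b * r ^ 2 := mul_le_mul_of_nonneg_left hw.le hb
        have h3 : a * r ^ 2 + b * r ^ 2 = r ^ 2 := by rw [← add_mul, hab, one_mul]
        linarith

/-- The sheets are continuous. -/
theorem tendsto_σ (S : Sheets d E Γ) {i : Fin S.N} {z : Cm d} (hz : z ∈ ball (0 : Cm d) 3) :
    Tendsto (S.σ i) (𝓝 z) (𝓝 (S.σ i z)) := (S.map_nhds i z hz).le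

theorem σ_inj (S : Sheets d E Γ) {i : Fin S.N} {z w : Cm d} (hz : z ∈ ball (0 : Cm d) 3)
    (hw : w ∈ ball (0 : Cm d) 3) (h : S.σ i z = S.σ i w) : z = w :=
  (S.inj i z hz w hw 1 (by rw [one_smul]; exact h)).2

theorem isOpen_image (S : Sheets d E Γ) (i : Fin S.N) {V : Set (Cm d)} (hV : IsOpen V)
    (hV' : V ⊆ ball 0 3) : IsOpen (S.σ i '' V) := by
  rw [isOpen_iff_mem_nhds]
  rintro _ ⟨z, hz, rfl⟩
  rw [← S.map_nhds i z (hV' hz)]
  exact image_mem_map (hV.mem_nhds hz)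

theorem exists_tr (S : Sheets d E Γ) {i j : Fin S.N} {z z' : Cm d} (hz : z ∈ ball (0 : Cm d) 3)
    (hz' : z' ∈ ball (0 : Cm d) 3) (h : S.σ i z = S.σ j z') : ∃ ψ, Tr S S id i j z z' ψ := by
  obtain ⟨θ, h1, h2, h3⟩ := S.hol i j z hz z' hz' 1 (by rw [one_smul]; exact h)
  refine ⟨θ, (h1.restrictScalars (𝕜 := ℝ)).contDiffAt, h2, ?_⟩
  simpa using h3

section Good
variable {S : Sheets d E Γ} {A : Type} (G : Good S A)

theorem eb_sub (a : A) : eb (G.c a) (G.r a) ⊆ ball (0 : Cm d) 3 := by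
  intro z hz
  have h1 : z ∈ eb (G.c a) (2 * G.r a) := by
    simp only [eb, mem_ofPred_eq] at hz ⊢
    nlinarith [G.pos a]
  exact ball_subset_ball (by norm_num) (G.sub a h1)

theorem isOpen_U (a : A) : IsOpen (G.U a) := isOpen_image S _ (isOpen_eb _ _) (eb_sub G a)

theorem exists_mem_U (e : E) : ∃ a, e ∈ G.U a := by
  obtain ⟨a, z, hz, he⟩ := G.cover e
  refine ⟨a, z, ?_, he⟩
  simp only [eb, mem_ofPred_eq] at hz ⊢
  nlinarith [G.pos a]

/-- Near a point of `U a`, the sheet `j` is in `U a`. -/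
theorem eventually_mem {V : Set E} (hV : IsOpen V) {j : Fin S.N} {z : Cm d}
    (hz : z ∈ ball (0 : Cm d) 3) (h : S.σ j z ∈ V) : ∀ᶠ u in 𝓝 z, S.σ j u ∈ V :=
  (tendsto_σ S hz).eventually (hV.mem_nhds h)

end Good

end Vale.Agent.P281.H89.TS
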