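import Vale.Agent.P281.H89.TS.Basic

/-!
# P281, project T-S, block A4b: exact forms and coboundaries (helper89)
-/

open Set Filter Metric MeasureTheory Vale.Agent.P281.H64
open scoped Topology ContDiff ComplexConjugate ComplexOrder

noncomputable section

namespace Vale.Agent.P281.H89.TS

open Vale.Agent.P281.H64.TK Vale.Agent.P281.H64.TK.TS

variable {d : ℕ} {E Γ : Type} [TopologicalSpace E] [Group Γ] [MulAction Γ E]
variable {S : Sheets d E Γ} {A : Type}

/-- A closed 1-form on a member of a good covering has a primitive. -/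
theorem exists_prim (hP : PoinStmt) (G : Good S A) (a : A) {η : Fin S.N → Cm d → L1 d}
    (hη : F1On S (G.U a) η)
    (hcl : ∀ i, ∀ z ∈ ball (0 : Cm d) 3, S.σ i z ∈ G.U a → ∀ u v,
      fderiv ℝ (η i) z u v = fderiv ℝ (η i) z v u) :
    ∃ F : E → ℂ, SmOn S (G.U a) F ∧ IsD0 S (G.U a) F η := by
  classical
  set C : Set (Cm d) := eb (G.c a) (G.r a) with hC
  have hCo : IsOpen C := isOpen_eb _ _
  have hC3 : C ⊆ ball (0 : Cm d) 3 := eb_sub G a
  have hCU : ∀ z ∈ C, S.σ (G.i a) z ∈ G.U a := fun z hz => ⟨z, hz, rfl⟩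
  obtain ⟨f, hf, hf'⟩ := hP.2 d C hCo (convex_eb _ _) (η (G.i a))
    (fun z hz => (hη.smooth _ z (hC3 hz) (hCU z hz)).contDiffWithinAt)
    (fun z hz u v => hcl _ z (hC3 hz) (hCU z hz) u v)
  let F : E → ℂ := fun e => if h : ∃ z ∈ C, S.σ (G.i a) z = e then f h.choose else 0
  have hF : ∀ z ∈ C, F (S.σ (G.i a) z) = f z := by
    intro z hz
    have h : ∃ w ∈ C, S.σ (G.i a) w = S.σ (G.i a) z := ⟨z, hz, rfl⟩
    simp only [F, dif_pos h]
    congr 1
    exact σ_inj S (hC3 h.choose_spec.1) (hC3 hz) h.choose_spec.2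
  have key : ∀ j, ∀ z ∈ ball (0 : Cm d) 3, S.σ j z ∈ G.U a →
      ContDiffAt ℝ ∞ (fun u => F (S.σ j u)) z ∧ fderiv ℝ (fun u => F (S.σ j u)) z = η j z := by
    rintro j z hz ⟨w, hw, hwz⟩
    obtain ⟨ψ, hψ⟩ := exists_tr S hz (hC3 hw) hwz.symm
    obtain ⟨h1, h2, h3⟩ := id hψ
    have hev : (fun u => F (S.σ j u)) =ᶠ[𝓝 z] fun u => f (ψ u) := by
      have h4 : ∀ᶠ u in 𝓝 z, ψ u ∈ C :=
        h1.continuousAt.eventually (by rw [h2]; exact hCo.mem_nhds hw)
      filter_upwards [h3, h4] with u hu hu'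
      rw [← hF _ hu', ← hu]; rfl
    have hfw : ContDiffAt ℝ ∞ f (ψ z) := by
      rw [h2]; exact hf.contDiffAt (hCo.mem_nhds hw)
    refine ⟨(hfw.comp z h1).congr_of_eventuallyEq hev, ?_⟩
    rw [hev.fderiv_eq]
    have h5 : fderiv ℝ (fun u => f (ψ u)) z = (fderiv ℝ f (ψ z)).comp (fderiv ℝ ψ z) :=
      fderiv_comp z (hfw.differentiableAt (by simp)) (h1.differentiableAt (by simp))
    rw [h5, h2, hf' w hw]
    ext v
    rw [hη.change j (G.i a) z hz w (hC3 hw) ⟨w, hw, hwz⟩ ψ hψ v]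
    rfl
  exact ⟨F, fun j z hz h => (key j z hz h).1, fun j z hz h => (key j z hz h).2⟩

/-- A function with derivative zero on `U a ∩ U b` is constant. -/
theorem eq_of_isD0_zero (G : Good S A) (a b : A) {F : E → ℂ} (hs : SmOn S (G.U a ∩ G.U b) F)
    (h0 : IsD0 S (G.U a ∩ G.U b) F (fun _ _ => 0)) {e e' : E} (he : e ∈ G.U a ∩ G.U b)
    (he' : e' ∈ G.U a ∩ G.U b) : F e = F e' := by
  set C : Set (Cm d) := {z | z ∈ eb (G.c a) (G.r a) ∧
    S.σ (G.i a) z ∈ S.σ (G.i b) '' eb (G.c b) (G.r b)} with hC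
  have hconv : Convex ℝ C := G.conv a b
  have hC3 : C ⊆ ball (0 : Cm d) 3 := fun z hz => eb_sub G a hz.1
  have hCo : IsOpen C := by
    rw [isOpen_iff_mem_nhds]
    intro z hz
    filter_upwards [(isOpen_eb _ _).mem_nhds hz.1,
      eventually_mem (isOpen_U G b) (hC3 hz) hz.2] with u h1 h2
    exact ⟨h1, h2⟩
  have hCU : ∀ z ∈ C, S.σ (G.i a) z ∈ G.U a ∩ G.U b := fun z hz => ⟨⟨z, hz.1, rfl⟩, hz.2⟩
  obtain ⟨⟨z, hz, hze⟩, hb⟩ := he
  obtain ⟨⟨z', hz', hze'⟩, hb'⟩ := he'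
  subst hze; subst hze'
  have hzC : z ∈ C := ⟨hz, hb⟩
  have hzC' : z' ∈ C := ⟨hz', hb'⟩
  exact hCo.is_const_of_fderiv_eq_zero (𝕜 := ℝ) (f := fun u => F (S.σ (G.i a) u)) hconv.isPreconnected
    (fun u hu => ((hs _ u (hC3 hu) (hCU u hu)).differentiableAt (by simp)).differentiableWithinAt)
    (fun u hu => h0 _ u (hC3 hu) (hCU u hu)) hzC hzC'

theorem SmOn.mono {V W : Set E} (h : V ⊆ W) {g : E → ℂ} (hg : SmOn S W g) : SmOn S V g :=
  fun i z hz hV => hg i z hz (h hV)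

/-- The data give a cocycle. -/
theorem isCoc (G : Good S A) {α : Fin S.N → Cm d → L2 d} {β : A → Fin S.N → Cm d → L1 d}
    {g : A → A → E → ℂ} {c : A → A → A → ℂ} (h : IsCo S G.U α β g c) :
    IsCoc (K3 G.U) (K4 G.U) c := by
  refine ⟨fun a b e hn => h.zero a b e (not_nonempty_iff_eq_empty.1 hn), ?_⟩
  rintro a b e f ⟨p, ⟨⟨ha, hb⟩, he⟩, hf⟩
  rw [← h.co b e f p ⟨⟨hb, he⟩, hf⟩, ← h.co a e f p ⟨⟨ha, he⟩, hf⟩, ← h.co a b f p ⟨⟨ha, hb⟩, hf⟩,
    ← h.co a b e p ⟨⟨ha, hb⟩, he⟩]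
  ring

/-- An exact form gives a coboundary. -/
theorem isCob_of_exact (hP : PoinStmt) (G : Good S A) {α : Fin S.N → Cm d → L2 d}
    {β : A → Fin S.N → Cm d → L1 d} {g : A → A → E → ℂ} {c : A → A → A → ℂ}
    (h : IsCo S G.U α β g c) (hex : Exact S α) : IsCob (K3 G.U) c := by
  classical
  obtain ⟨γ, hγ, hdγ⟩ := hex
  have hsub : ∀ a, ∀ i, ∀ z ∈ ball (0 : Cm d) 3, S.σ i z ∈ G.U a →
      fderiv ℝ (fun u => β a i u - γ i u) z = fderiv ℝ (β a i) z - fderiv ℝ (γ i) z := by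
    intro a i z hz hU
    exact fderiv_fun_sub (((h.f1 a).smooth i z hz hU).differentiableAt (by simp))
      ((hγ.smooth i z hz (mem_univ _)).differentiableAt (by simp))
  have hprim : ∀ a, ∃ F : E → ℂ, SmOn S (G.U a) F ∧
      IsD0 S (G.U a) F (fun i z => β a i z - γ i z) := by
    intro a
    refine exists_prim hP G a ⟨?_, ?_⟩ ?_
    · intro i z hz hU
      exact ((h.f1 a).smooth i z hz hU).sub (hγ.smooth i z hz (mem_univ _))
    · intro i j z hz z' hz' hU ψ hψ v
      change β a i z v - γ i z v = β a j z' _ - γ j z' _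
      rw [(h.f1 a).change i j z hz z' hz' hU ψ hψ v, hγ.change i j z hz z' hz' (mem_univ _) ψ hψ v]
    · intro i z hz hU u v
      have h1 := h.d1 a i z hz hU u v
      have h2 := hdγ i z hz (mem_univ _) u v
      rw [hsub a i z hz hU]
      change fderiv ℝ (β a i) z u v - fderiv ℝ (γ i) z u v =
        fderiv ℝ (β a i) z v u - fderiv ℝ (γ i) z v u
      linear_combination h1 - h2
  choose F hF hF' using hprim
  -- the differences are constant
  have hconst : ∀ a b, ∃ k : ℂ, ∀ e ∈ G.U a ∩ G.U b, g a b e = k + F a e - F b e := by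
    intro a b
    by_cases hne : (G.U a ∩ G.U b).Nonempty
    · obtain ⟨e₀, he₀⟩ := hne
      refine ⟨g a b e₀ - F a e₀ + F b e₀, fun e he => ?_⟩
      have hsm : SmOn S (G.U a ∩ G.U b) (fun e => g a b e - F a e + F b e) := by
        intro i z hz hU
        exact ((h.sm a b i z hz hU).sub (hF a i z hz hU.1)).add (hF b i z hz hU.2)
      have h0 : IsD0 S (G.U a ∩ G.U b) (fun e => g a b e - F a e + F b e) (fun _ _ => 0) := by
        intro i z hz hU
        have d1 := (h.sm a b i z hz hU).differentiableAt (n := ∞) (by simp)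
        have d2 := (hF a i z hz hU.1).differentiableAt (n := ∞) (by simp)
        have d3 := (hF b i z hz hU.2).differentiableAt (n := ∞) (by simp)
        have e1 := h.d0 a b i z hz hU
        have e2 := hF' a i z hz hU.1
        have e3 := hF' b i z hz hU.2
        rw [fderiv_fun_add (d1.fun_sub d2) d3, fderiv_fun_sub d1 d2, e1, e2, e3]
        ext v
        change (β a i z v - β b i z v) - (β a i z v - γ i z v) + (β b i z v - γ i z v) = 0
        ring
      have := eq_of_isD0_zero G a b hsm h0 he he₀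
      linear_combination this
    · exact ⟨0, fun e he => (hne ⟨e, he⟩).elim⟩
  choose k hk using hconst
  refine ⟨k, ?_⟩
  rintro a b e ⟨p, ⟨ha, hb⟩, he⟩
  rw [← h.co a b e p ⟨⟨ha, hb⟩, he⟩, hk b e p ⟨hb, he⟩, hk a e p ⟨ha, he⟩, hk a b p ⟨ha, hb⟩]
  ring

/-- Gluing of the local 1-forms `β a - d(P a)`, where `P a - P b = g a b - h a b`. -/
theorem exact_of_glue (G : Good S A) {α : Fin S.N → Cm d → L2 d}
    {β : A → Fin S.N → Cm d → L1 d} {g : A → A → E → ℂ} {c : A → A → A → ℂ}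
    (h : IsCo S G.U α β g c) (P : A → E → ℂ) (hP : ∀ a, SmOn S (G.U a) (P a)) (k : A → A → ℂ)
    (hPk : ∀ a b, ∀ e ∈ G.U a ∩ G.U b, P a e - P b e = g a b e - k a b) : Exact S α := by
  classical
  choose ch hch using exists_mem_U G
  let γ : Fin S.N → Cm d → L1 d := fun i z =>
    β (ch (S.σ i z)) i z - fderiv ℝ (fun u => P (ch (S.σ i z)) (S.σ i u)) z
  have hγ : ∀ a i, ∀ z ∈ ball (0 : Cm d) 3, S.σ i z ∈ G.U a →
      γ i z = β a i z - fderiv ℝ (fun u => P a (S.σ i u)) z := by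
    intro a i z hz hU
    set b := ch (S.σ i z) with hb
    have hUb : S.σ i z ∈ G.U b := hch _
    have e1 := h.d0 a b i z hz ⟨hU, hUb⟩
    have hev : (fun u => P a (S.σ i u) - P b (S.σ i u)) =ᶠ[𝓝 z]
        fun u => g a b (S.σ i u) - k a b := by
      filter_upwards [eventually_mem ((isOpen_U G a).inter (isOpen_U G b)) hz ⟨hU, hUb⟩] with u hu
      exact hPk a b _ hu
    have d1 := (hP a i z hz hU).differentiableAt (n := ∞) (by simp)
    have d2 := (hP b i z hz hUb).differentiableAt (n := ∞) (by simp)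
    have e2 := hev.fderiv_eq (𝕜 := ℝ)
    rw [fderiv_fun_sub d1 d2, fderiv_sub_const, e1] at e2
    change β b i z - fderiv ℝ (fun u => P b (S.σ i u)) z = _
    have e3 : β a i z - β b i z = fderiv ℝ (fun u => P a (S.σ i u)) z -
      fderiv ℝ (fun u => P b (S.σ i u)) z := e2.symm
    have e4 : β a i z = fderiv ℝ (fun u => P a (S.σ i u)) z -
      fderiv ℝ (fun u => P b (S.σ i u)) z + β b i z := by rw [← e3, sub_add_cancel]
    rw [e4]
    abel
  have hev : ∀ a i, ∀ z ∈ ball (0 : Cm d) 3, S.σ i z ∈ G.U a →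
      γ i =ᶠ[𝓝 z] fun u => β a i u - fderiv ℝ (fun u => P a (S.σ i u)) u := by
    intro a i z hz hU
    filter_upwards [eventually_mem (isOpen_U G a) hz hU, isOpen_ball.mem_nhds hz] with u hu hu'
    exact hγ a i u hu' hu
  have hdP : ∀ a i, ∀ z ∈ ball (0 : Cm d) 3, S.σ i z ∈ G.U a →
      ContDiffAt ℝ ∞ (fderiv ℝ (fun u => P a (S.σ i u))) z := fun a i z hz hU =>
    (hP a i z hz hU).fderiv_right (m := ∞) (by simp)
  refine ⟨γ, ⟨?_, ?_⟩, ?_⟩
  · intro i z hz _
    have hU := hch (S.σ i z)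
    refine ContDiffAt.congr_of_eventuallyEq ?_ (hev _ i z hz hU)
    exact ((h.f1 _).smooth i z hz hU).sub (hdP _ i z hz hU)
  · intro i j z hz z' hz' _ ψ hψ v
    have hU := hch (S.σ i z)
    set a := ch (S.σ i z) with ha
    have hσ : S.σ i z = S.σ j z' := by
      have := hψ.2.2.self_of_nhds
      rw [hψ.2.1] at this
      exact this
    have hU' : S.σ j z' ∈ G.U a := hσ ▸ hU
    rw [hγ a i z hz hU, hγ a j z' hz' hU']
    have hev' : (fun u => P a (S.σ i u)) =ᶠ[𝓝 z] (fun u => P a (S.σ j u)) ∘ ψ := by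
      filter_upwards [hψ.2.2] with u hu
      exact congrArg (P a) hu
    have e1 : fderiv ℝ (fun u => P a (S.σ i u)) z =
        (fderiv ℝ (fun u => P a (S.σ j u)) z').comp (fderiv ℝ ψ z) := by
      rw [hev'.fderiv_eq, ← hψ.2.1]
      refine fderiv_comp z ?_ (hψ.1.differentiableAt (by simp))
      rw [hψ.2.1]
      exact (hP a j z' hz' hU').differentiableAt (by simp)
    have e2 := (h.f1 a).change i j z hz z' hz' hU ψ hψ v
    change β a i z v - fderiv ℝ (fun u => P a (S.σ i u)) z v = β a j z' _ - _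
    rw [e2, e1]
    rfl
  · intro i z hz _ u v
    have hU := hch (S.σ i z)
    set a := ch (S.σ i z) with ha
    rw [(hev a i z hz hU).fderiv_eq, fderiv_fun_sub
      (((h.f1 a).smooth i z hz hU).differentiableAt (by simp))
      ((hdP a i z hz hU).differentiableAt (by simp))]
    have hsym := ((hP a i z hz hU).isSymmSndFDerivAt
      (by simp only [minSmoothness_of_isRCLikeNormedField]; exact WithTop.coe_le_coe.2 le_top)) u v
    have h1 := h.d1 a i z hz hU u v
    change (fderiv ℝ (β a i) z u v - fderiv ℝ (fderiv ℝ (fun u => P a (S.σ i u))) z u v) -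
      (fderiv ℝ (β a i) z v u - fderiv ℝ (fderiv ℝ (fun u => P a (S.σ i u))) z v u) = α i z u v
    linear_combination h1 - hsym

/-- A coboundary comes from an exact form. -/
theorem exact_of_isCob [Fintype A] (G : Good S A) {ρ : A → E → ℝ} (hρ : Part G ρ)
    {α : Fin S.N → Cm d → L2 d}
    {β : A → Fin S.N → Cm d → L1 d} {g : A → A → E → ℂ} {c : A → A → A → ℂ}
    (h : IsCo S G.U α β g c) (hc : IsCob (K3 G.U) c) : Exact S α := by
  classical
  obtain ⟨k, hk⟩ := hc
  refine exact_of_glue G h (fun a p => ∑ e, (ρ e p : ℂ) * (g a e p - k a e)) ?_ k ?_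
  · intro a i z hz hU
    refine ContDiffAt.sum fun e _ => ?_
    by_cases he : S.σ i z ∈ G.U e
    · exact (hρ.smooth e i z hz (mem_univ _)).mul
        ((h.sm a e i z hz ⟨hU, he⟩).sub contDiffAt_const)
    · have h0 : (fun u => (ρ e (S.σ i u) : ℂ) * (g a e (S.σ i u) - k a e)) =ᶠ[𝓝 z]
          fun _ => 0 := by
        filter_upwards [(tendsto_σ S hz).eventually (hρ.supp e _ he)] with u hu
        rw [hu]; simp
      exact contDiffAt_const.congr_of_eventuallyEq h0
  · rintro a b p ⟨ha, hb⟩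
    have hsum : (∑ e, (ρ e p : ℂ)) = 1 := by
      rw [← Complex.ofReal_sum, hρ.sum p, Complex.ofReal_one]
    calc ∑ e, (ρ e p : ℂ) * (g a e p - k a e) - ∑ e, (ρ e p : ℂ) * (g b e p - k b e)
        = ∑ e, (ρ e p : ℂ) * (g a b p - k a b) := by
          rw [← Finset.sum_sub_distrib]
          refine Finset.sum_congr rfl fun e _ => ?_
          by_cases he : p ∈ G.U e
          · have h1 := h.co a b e p ⟨⟨ha, hb⟩, he⟩
            rw [hk a b e ⟨p, ⟨ha, hb⟩, he⟩] at h1
            linear_combination (-(ρ e p : ℂ)) * h1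
          · rw [(hρ.supp e p he).self_of_nhds]; simp
      _ = g a b p - k a b := by rw [← Finset.sum_mul, hsum, one_mul]

/-- **Block A4b** of T-S. -/
theorem coCob (hP : PoinStmt) (hρ : PartStmt) : CoCobStmt := by
  intro d E Γ _ _ _ _ _ _ S A _ G α β g c hd _ hco
  obtain ⟨ρ, hρ'⟩ := hρ d E Γ S A G hd
  exact ⟨isCoc G hco, isCob_of_exact hP G hco, exact_of_isCob G hρ' hco⟩

end Vale.Agent.P281.H89.TS
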